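import Vale.Agent.P181.DG6.H887.Sub
import Vale.Agent.P181.SZR3.Col

set_option autoImplicit false

/-!
# P181, O2: the operators `Om k l = ∂_{z,k} ∂_{y,l} - ∂_{z,l} ∂_{y,k}` and the substitution `q_a ↦ 0`

`colD a z = q_a · ∂_z`, `kill a` = substitution of `0` for the column `a`.
-/

open MvPolynomial

namespace Vale.Agent.P181.O2.H96

open Vale.Agent.P181.SZR3 (colD colD_X colD_eq pderiv_X' der_sum)
open Vale.Agent.P181.DG6.H887 (der_comm)

variable {m : ℕ} {σ : Type} [DecidableEq σ]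

lemma pd_comm (p q : Fin m × σ) (f : MvPolynomial (Fin m × σ) ℂ) :
    pderiv p (pderiv q f) = pderiv q (pderiv p f) := by
  have h : ⁅(pderiv (R := ℂ) p : Derivation ℂ (MvPolynomial (Fin m × σ) ℂ)
      (MvPolynomial (Fin m × σ) ℂ)), pderiv (R := ℂ) q⁆ = 0 := by
    apply derivation_ext
    intro x
    rw [Derivation.commutator_apply, pderiv_X', pderiv_X', Derivation.zero_apply]
    split_ifs <;> simp
  have h1 := congrArg (fun D => D f) h
  simp only [Derivation.commutator_apply, Derivation.zero_apply] at h1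
  exact sub_eq_zero.1 h1

lemma pd_colD (i : Fin m) (c a z : σ) (f : MvPolynomial (Fin m × σ) ℂ) :
    pderiv (i, c) (colD a z f) =
      colD a z (pderiv (i, c) f) + if c = a then pderiv (i, z) f else 0 := by
  have h : ⁅(pderiv (R := ℂ) (i, c) : Derivation ℂ (MvPolynomial (Fin m × σ) ℂ)
      (MvPolynomial (Fin m × σ) ℂ)), colD a z⁆ =
      if c = a then pderiv (R := ℂ) (i, z) else 0 := by
    apply derivation_ext
    rintro ⟨k, l⟩
    rw [Derivation.commutator_apply, colD_X, pderiv_X']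
    have h9 : colD a z (if (k, l) = (i, c) then (1 : MvPolynomial (Fin m × σ) ℂ) else 0) = 0 := by
      split_ifs
      · exact Derivation.map_one_eq_zero _
      · exact map_zero _
    rw [h9, sub_zero]
    by_cases hca : c = a
    · subst hca
      rw [if_pos rfl, pderiv_X']
      by_cases hl : l = z
      · subst hl
        rw [if_pos rfl, pderiv_X']
        by_cases hk : k = i
        · subst hk
          rw [if_pos rfl, if_pos rfl]
        · rw [if_neg (by simp [hk]), if_neg (by simp [hk])]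
      · rw [if_neg hl, map_zero, if_neg (by simp [hl])]
    · rw [if_neg hca, Derivation.zero_apply]
      by_cases hl : l = z
      · rw [if_pos hl, pderiv_X_of_ne (by simp [Ne.symm hca])]
      · rw [if_neg hl, map_zero]
  have h1 := congrArg (fun D => D f) h
  simp only [Derivation.commutator_apply] at h1
  rw [sub_eq_iff_eq_add] at h1
  rw [h1, add_comm]
  congr 1
  split_ifs <;> rfl

/-! ### The substitution `q_a ↦ 0` -/

/-- The substitution of `0` for the column `a`. -/
noncomputable def kill (a : σ) : MvPolynomial (Fin m × σ) ℂ →ₐ[ℂ] MvPolynomial (Fin m × σ) ℂ :=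
  aeval fun p => if p.2 = a then 0 else X p

lemma kill_X (a : σ) (p : Fin m × σ) :
    kill a (X p : MvPolynomial (Fin m × σ) ℂ) = if p.2 = a then 0 else X p := aeval_X _ _

lemma kill_colD_self [Fintype σ] (a z : σ) (f : MvPolynomial (Fin m × σ) ℂ) :
    kill a (colD a z f) = 0 := by
  rw [colD_eq, map_sum]
  refine Finset.sum_eq_zero fun i _ => ?_
  rw [map_mul, kill_X, if_pos rfl, zero_mul]

lemma kill_pd {a c : σ} (hc : c ≠ a) (r : Fin m) (f : MvPolynomial (Fin m × σ) ℂ) :
    kill a (pderiv (r, c) f) = pderiv (r, c) (kill a f) := by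
  refine (der_comm (kill a) (pderiv (R := ℂ) (r, c)) (pderiv (R := ℂ) (r, c)) (fun p => ?_) f).symm
  rw [kill_X, pderiv_X']
  by_cases hp : p.2 = a
  · rw [if_pos hp, map_zero, if_neg (by rintro rfl; exact hc hp), map_zero]
  · rw [if_neg hp, pderiv_X']
    split_ifs
    · rw [map_one]
    · rw [map_zero]

lemma kill_colD {a i z : σ} (hi : i ≠ a) (hz : z ≠ a) (f : MvPolynomial (Fin m × σ) ℂ) :
    kill a (colD i z f) = colD i z (kill a f) := by
  refine (der_comm (kill a) (colD i z) (colD i z) (fun p => ?_) f).symm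
  rw [kill_X, colD_X]
  by_cases hp : p.2 = a
  · rw [if_pos hp, map_zero, if_neg (by rw [hp]; exact hz.symm), map_zero]
  · rw [if_neg hp, colD_X]
    split_ifs
    · rw [kill_X, if_neg hi]
    · rw [map_zero]

/-- **(O1)** -/
lemma kill_pd_colD [Fintype σ] {a z : σ} (hz : z ≠ a) (r : Fin m)
    (f : MvPolynomial (Fin m × σ) ℂ) :
    kill a (pderiv (r, a) (colD a z f)) = pderiv (r, z) (kill a f) := by
  rw [pd_colD, if_pos rfl, map_add, kill_colD_self, zero_add, kill_pd hz]

lemma pd_colD_ne {c a : σ} (h : c ≠ a) (z : σ) (r : Fin m) (f : MvPolynomial (Fin m × σ) ℂ) :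
    pderiv (r, c) (colD a z f) = colD a z (pderiv (r, c) f) := by
  rw [pd_colD, if_neg h, add_zero]

lemma kill_pd_colD_ne [Fintype σ] {a i z : σ} (hi : i ≠ a) (hz : z ≠ a) (r : Fin m)
    (f : MvPolynomial (Fin m × σ) ℂ) :
    kill a (pderiv (r, a) (colD i z f)) = colD i z (kill a (pderiv (r, a) f)) := by
  rw [pd_colD_ne (Ne.symm hi), kill_colD hi hz]

/-! ### The operators `Om` -/

/-- `∂_{z,k} ∂_{y,l} - ∂_{z,l} ∂_{y,k}`. -/
noncomputable def Om (k l : Fin m) (z y : σ) :
    MvPolynomial (Fin m × σ) ℂ →ₗ[ℂ] MvPolynomial (Fin m × σ) ℂ :=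
  (pderiv (R := ℂ) (k, z)).toLinearMap ∘ₗ (pderiv (R := ℂ) (l, y)).toLinearMap -
    (pderiv (R := ℂ) (l, z)).toLinearMap ∘ₗ (pderiv (R := ℂ) (k, y)).toLinearMap

lemma Om_apply (k l : Fin m) (z y : σ) (f : MvPolynomial (Fin m × σ) ℂ) :
    Om k l z y f = pderiv (k, z) (pderiv (l, y) f) - pderiv (l, z) (pderiv (k, y) f) := rfl

/-- **(O2)** `Om` commutes with `q_i · ∂_z`, also for `i = y`. -/
lemma Om_colD (k l : Fin m) {z i : σ} (y : σ) (hi : i ≠ z) (f : MvPolynomial (Fin m × σ) ℂ) :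
    Om k l z y (colD i z f) = colD i z (Om k l z y f) := by
  rw [Om_apply, Om_apply, pd_colD, pd_colD, map_add, map_add, pd_colD_ne (Ne.symm hi),
    pd_colD_ne (Ne.symm hi), map_sub]
  by_cases h : y = i
  · rw [if_pos h, if_pos h, pd_comm (k, z) (l, z)]
    ring
  · rw [if_neg h, if_neg h, map_zero, map_zero]
    ring

/-- `Om` in the columns `z, v` commutes with `z · ∂_v`. -/
lemma Om_colD_zv (k l : Fin m) {z v : σ} (h : z ≠ v) (f : MvPolynomial (Fin m × σ) ℂ) :
    Om k l z v (colD z v f) = colD z v (Om k l z v f) := by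
  rw [Om_apply, Om_apply, pd_colD_ne (Ne.symm h), pd_colD_ne (Ne.symm h), pd_colD, pd_colD,
    if_pos rfl, if_pos rfl, pd_comm (k, v) (l, v), map_sub]
  ring

lemma kill_Om {a z y : σ} (hz : z ≠ a) (hy : y ≠ a) (k l : Fin m)
    (f : MvPolynomial (Fin m × σ) ℂ) : kill a (Om k l z y f) = Om k l z y (kill a f) := by
  rw [Om_apply, Om_apply, map_sub, kill_pd hz, kill_pd hz, kill_pd hy, kill_pd hy]

/-- Euler's identity for one column of a polynomial which is homogeneous in this column. -/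
lemma euler [Fintype σ] {c : σ} {d : ℕ} {f : MvPolynomial (Fin m × σ) ℂ}
    (hf : ∀ u, coeff u f ≠ 0 → ∑ i, u (i, c) = d) : colD c c f = (d : ℂ) • f := by
  have h0 : f = ∑ v ∈ f.support, monomial v (coeff v f) := f.as_sum
  have h1 : colD c c f = ∑ v ∈ f.support, colD c c (monomial v (coeff v f)) := by
    conv_lhs => rw [h0]
    exact map_sum _ _ _
  rw [h1]
  conv_rhs => rw [h0]
  rw [Finset.smul_sum]
  apply Finset.sum_congr rfl
  intro v hv
  rw [colD_eq]
  simp_rw [X_mul_pderiv_monomial]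
  rw [← Finset.sum_smul, hf v (mem_support_iff.1 hv)]
  exact (Nat.cast_smul_eq_nsmul ℂ _ _).symm

lemma coeff_pd {q : Fin m × σ} {f : MvPolynomial (Fin m × σ) ℂ} {u : Fin m × σ →₀ ℕ}
    (h : coeff u (pderiv q f) ≠ 0) : coeff (u + Finsupp.single q 1) f ≠ 0 := by
  rw [coeff_pderiv] at h
  exact left_ne_zero_of_mul h

/-- If all the derivatives in a column of positive degree vanish, the polynomial is `0`. -/
lemma eq_zero_of_pd {v : σ} {f : MvPolynomial (Fin m × σ) ℂ}
    (hd : ∀ u, coeff u f ≠ 0 → 1 ≤ ∑ i, u (i, v)) (h : ∀ k, pderiv (k, v) f = 0) : f = 0 := by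
  apply MvPolynomial.ext
  intro u
  rw [coeff_zero]
  by_contra hu
  have h1 : ∑ i, u (i, v) ≠ 0 := by
    have := hd u hu
    omega
  obtain ⟨i, _, hi⟩ := Finset.exists_ne_zero_of_sum_ne_zero h1
  have h2 : coeff (u - Finsupp.single (i, v) 1) (pderiv (i, v) f) = 0 := by
    rw [h i, coeff_zero]
  have h3 : u - Finsupp.single (i, v) 1 + Finsupp.single (i, v) 1 = u := by
    ext t
    by_cases ht : t = (i, v)
    · subst ht
      simp
      omega
    · simp [Ne.symm ht]
  rw [coeff_pderiv, h3] at h2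
  rcases mul_eq_zero.1 h2 with h4 | h4
  · exact hu h4
  · norm_cast at h4

/-- **(O4)** `(z · ∂_v) f = 0` and all `Om k l z v f = 0` give `f = 0`. -/
theorem om_inj [Fintype σ] {z v : σ} (hzv : z ≠ v) {p : ℕ} {f : MvPolynomial (Fin m × σ) ℂ}
    (hp : ∀ u, coeff u f ≠ 0 → ∑ i, u (i, z) = p)
    (hd : ∀ u, coeff u f ≠ 0 → 1 ≤ ∑ i, u (i, v))
    (h0 : colD z v f = 0) (hO : ∀ k l, Om k l z v f = 0) : f = 0 := by
  refine eq_zero_of_pd hd fun k => ?_
  have h1 : pderiv (k, z) (colD z v f) = 0 := by rw [h0, map_zero]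
  rw [pd_colD, if_pos rfl] at h1
  have h2 : colD z v (pderiv (k, z) f) = colD z z (pderiv (k, v) f) := by
    rw [colD_eq, colD_eq]
    refine Finset.sum_congr rfl fun l _ => ?_
    have h3 := hO k l
    rw [Om_apply, sub_eq_zero] at h3
    rw [← h3, pd_comm (k, z) (l, v)]
  have h4 : colD z z (pderiv (k, v) f) = (p : ℂ) • pderiv (k, v) f := by
    apply euler
    intro u hu
    have h5 := hp _ (coeff_pd hu)
    simp only [Finsupp.add_apply, Finset.sum_add_distrib, SZR3.sum_single_col] at h5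
    rw [if_neg (Ne.symm hzv)] at h5
    simpa using h5
  rw [h2, h4] at h1
  have h6 : ((p : ℂ) + 1) • pderiv (k, v) f = 0 := by
    rw [add_smul, one_smul]
    exact h1
  rcases smul_eq_zero.1 h6 with h7 | h7
  · exact absurd h7 (Nat.cast_add_one_ne_zero p)
  · exact h7

/-- The degrees of `Om f`. -/
lemma coeff_Om {k l : Fin m} {z y : σ} {f : MvPolynomial (Fin m × σ) ℂ} {u : Fin m × σ →₀ ℕ}
    (h : coeff u (Om k l z y f) ≠ 0) : ∃ i j, coeff (u + Finsupp.single (i, z) 1 +
      Finsupp.single (j, y) 1) f ≠ 0 := by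
  rw [Om_apply, coeff_sub] at h
  by_cases h1 : coeff u (pderiv (k, z) (pderiv (l, y) f)) = 0
  · rw [h1, zero_sub] at h
    exact ⟨l, k, coeff_pd (coeff_pd (neg_ne_zero.1 h))⟩
  · exact ⟨k, l, coeff_pd (coeff_pd h1)⟩

/-- **(O4), twice.** `f` of degree `p` in the column `z` and `2` in the column `v`, killed by
`z · ∂_v` and by all the products of two `Om k l z v`, is `0`. -/
theorem om_inj2 [Fintype σ] {z v : σ} (hzv : z ≠ v) {p : ℕ} {f : MvPolynomial (Fin m × σ) ℂ}
    (hp : ∀ u, coeff u f ≠ 0 → ∑ i, u (i, z) = p)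
    (hd : ∀ u, coeff u f ≠ 0 → ∑ i, u (i, v) = 2)
    (h0 : colD z v f = 0) (hO : ∀ k l k' l', Om k' l' z v (Om k l z v f) = 0) : f = 0 := by
  refine om_inj hzv hp (fun u hu => by rw [hd u hu]; omega) h0 fun k l => ?_
  refine om_inj hzv (p := p - 1) (fun u hu => ?_) (fun u hu => ?_) ?_ (hO k l)
  · obtain ⟨i, j, hu2⟩ := coeff_Om hu
    have h5 := hp _ hu2
    simp only [Finsupp.add_apply, Finset.sum_add_distrib, SZR3.sum_single_col, if_pos,
      if_neg (Ne.symm hzv)] at h5
    simp at h5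
    omega
  · obtain ⟨i, j, hu2⟩ := coeff_Om hu
    have h5 := hd _ hu2
    simp only [Finsupp.add_apply, Finset.sum_add_distrib, SZR3.sum_single_col, if_pos,
      if_neg hzv] at h5
    simp at h5
    omega
  · rw [← Om_colD_zv k l hzv, h0, map_zero]

/-! ### The substitution `v ↦ q_a` -/

/-- The substitution `v ↦ q_a`. -/
noncomputable def sb (v a : σ) : MvPolynomial (Fin m × σ) ℂ →ₐ[ℂ] MvPolynomial (Fin m × σ) ℂ :=
  rename fun p => (p.1, if p.2 = v then a else p.2)

lemma sb_X (v a : σ) (p : Fin m × σ) : sb v a (X p : MvPolynomial (Fin m × σ) ℂ) =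
    X (p.1, if p.2 = v then a else p.2) := rename_X _ _

lemma pd_sb_ne {v a c : σ} (hca : c ≠ a) (hcv : c ≠ v) (r : Fin m)
    (f : MvPolynomial (Fin m × σ) ℂ) : pderiv (r, c) (sb v a f) = sb v a (pderiv (r, c) f) := by
  refine der_comm (sb v a) (pderiv (R := ℂ) (r, c)) (pderiv (R := ℂ) (r, c)) (fun p => ?_) f
  obtain ⟨k, l⟩ := p
  rw [sb_X, pderiv_X', pderiv_X']
  by_cases hl : l = v
  · subst hl
    simp [hcv.symm, hca.symm]
  · simp only [hl, if_false]
    split_ifs <;> simp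

lemma pd_sb_self {v a : σ} (hva : v ≠ a) (r : Fin m)
    (f : MvPolynomial (Fin m × σ) ℂ) :
    pderiv (r, a) (sb v a f) = sb v a (pderiv (r, v) f + pderiv (r, a) f) := by
  have h := der_comm (sb v a) (pderiv (R := ℂ) (r, v) + pderiv (R := ℂ) (r, a))
    (pderiv (R := ℂ) (r, a)) (fun p => ?_) f
  · exact h
  · obtain ⟨k, l⟩ := p
    rw [sb_X, Derivation.add_apply, pderiv_X', pderiv_X', pderiv_X']
    by_cases hl : l = v
    · subst hl
      simp only [if_true, Prod.mk.injEq, and_true, hva, and_false, if_false, add_zero]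
      split_ifs <;> simp
    · simp only [hl, if_false, Prod.mk.injEq, and_false, zero_add]
      split_ifs <;> simp

lemma colD_sb {v a i z : σ} (hiv : i ≠ v) (hza : z ≠ a) (hzv : z ≠ v)
    (f : MvPolynomial (Fin m × σ) ℂ) : colD i z (sb v a f) = sb v a (colD i z f) := by
  refine der_comm (sb v a) (colD i z) (colD i z) (fun p => ?_) f
  obtain ⟨k, l⟩ := p
  rw [sb_X, colD_X, colD_X]
  by_cases hl : l = v
  · subst hl
    simp [hza.symm, hzv.symm]
  · simp only [hl, if_false]
    split_ifs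
    · rw [sb_X]
      simp [hiv]
    · rw [map_zero]

lemma kill_sb {v a : σ} (f : MvPolynomial (Fin m × σ) ℂ) :
    kill a (sb v a f) = kill a (kill v f) := by
  have h : (kill a).comp (sb v a) = ((kill a).comp (kill v) :
      MvPolynomial (Fin m × σ) ℂ →ₐ[ℂ] MvPolynomial (Fin m × σ) ℂ) := by
    apply MvPolynomial.algHom_ext
    rintro ⟨k, l⟩
    rw [AlgHom.comp_apply, AlgHom.comp_apply, sb_X, kill_X, kill_X]
    by_cases hl : l = v
    · subst hl
      simp
    · simp only [hl, if_false]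
      rw [kill_X]
  exact DFunLike.congr_fun h f

/-- A polynomial all of whose monomials contain the column `v`. -/
lemma kill_eq_zero {v : σ} {f : MvPolynomial (Fin m × σ) ℂ}
    (hd : ∀ u, coeff u f ≠ 0 → ∑ i, u (i, v) ≠ 0) : kill v f = 0 := by
  rw [f.as_sum, map_sum]
  refine Finset.sum_eq_zero fun u hu => ?_
  obtain ⟨i, _, hi⟩ := Finset.exists_ne_zero_of_sum_ne_zero (hd u (mem_support_iff.1 hu))
  rw [kill, aeval_monomial, Finsupp.prod, Finset.prod_eq_zero (i := (i, v)), mul_zero]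
  · exact Finsupp.mem_support_iff.2 hi
  · rw [if_pos rfl, zero_pow hi]

/-- A polynomial without the column `v`. -/
lemma kill_eq_self {v : σ} {f : MvPolynomial (Fin m × σ) ℂ}
    (hd : ∀ u, coeff u f ≠ 0 → ∑ i, u (i, v) = 0) : kill v f = f := by
  conv_rhs => rw [f.as_sum]
  conv_lhs => rw [f.as_sum, map_sum]
  refine Finset.sum_congr rfl fun u hu => ?_
  have h1 := hd u (mem_support_iff.1 hu)
  rw [kill, aeval_monomial, MvPolynomial.monomial_eq]
  congr 1
  refine Finsupp.prod_congr fun p hp => ?_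
  rw [if_neg]
  rintro rfl
  have h2 := (Finset.sum_eq_zero_iff.1 h1) p.1 (Finset.mem_univ _)
  exact (Finsupp.mem_support_iff.1 hp) h2

/-- First order at `q_a = 0` of `G(v := q_a)`, `G` quadratic in `v`. -/
lemma kill_pd_sb {v a : σ} (hva : v ≠ a) (r : Fin m) {G : MvPolynomial (Fin m × σ) ℂ}
    (hd : ∀ u, coeff u G ≠ 0 → ∑ i, u (i, v) = 2) : kill a (pderiv (r, a) (sb v a G)) = 0 := by
  rw [pd_sb_self hva, kill_sb, map_add]
  have h1 : kill v (pderiv (r, v) G) = 0 := by
    apply kill_eq_zero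
    intro u hu
    have h5 := hd _ (coeff_pd hu)
    simp only [Finsupp.add_apply, Finset.sum_add_distrib, SZR3.sum_single_col] at h5
    simp at h5
    omega
  have h2 : kill v (pderiv (r, a) G) = 0 := by
    apply kill_eq_zero
    intro u hu
    have h5 := hd _ (coeff_pd hu)
    simp only [Finsupp.add_apply, Finset.sum_add_distrib, SZR3.sum_single_col,
      if_neg (Ne.symm hva)] at h5
    simp at h5
    omega
  rw [h1, h2, add_zero, map_zero]

lemma Om_sb {z v a : σ} (hva : v ≠ a) (hza : z ≠ a) (hzv : z ≠ v) (k l : Fin m)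
    (f : MvPolynomial (Fin m × σ) ℂ) :
    Om k l z a (sb v a f) = sb v a (Om k l z v f + Om k l z a f) := by
  have h : ∀ k l : Fin m, pderiv (k, z) (pderiv (l, a) (sb v a f)) =
      sb v a (pderiv (k, z) (pderiv (l, v) f)) + sb v a (pderiv (k, z) (pderiv (l, a) f)) := by
    intro k l
    rw [pd_sb_self hva, pd_sb_ne hza hzv, (pderiv (R := ℂ) (k, z)).map_add, map_add (sb v a)]
  have h2 : sb v a (Om k l z v f + Om k l z a f) =
      (sb v a (pderiv (k, z) (pderiv (l, v) f)) - sb v a (pderiv (l, z) (pderiv (k, v) f))) +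
      (sb v a (pderiv (k, z) (pderiv (l, a) f)) - sb v a (pderiv (l, z) (pderiv (k, a) f))) := by
    rw [map_add (sb v a), Om_apply, Om_apply, map_sub (sb v a), map_sub (sb v a)]
  rw [h2, Om_apply, h k l, h l k]
  ring

/-- **(O2')** Second order at `q_a = 0` of `G(v := q_a)`, `G` quadratic in `v`. -/
theorem kill_Om_Om_sb {z v a : σ} (hva : v ≠ a) (hza : z ≠ a) (hzv : z ≠ v) (k l k' l' : Fin m)
    {G : MvPolynomial (Fin m × σ) ℂ} (hd : ∀ u, coeff u G ≠ 0 → ∑ i, u (i, v) = 2) :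
    kill a (Om k' l' z a (Om k l z a (sb v a G))) = kill a (Om k' l' z v (Om k l z v G)) := by
  have e0 : ∀ (k l : Fin m) (d : ℕ) (f : MvPolynomial (Fin m × σ) ℂ),
      (∀ u, coeff u f ≠ 0 → ∑ i, u (i, v) = d + 1) →
      ∀ u, coeff u (Om k l z v f) ≠ 0 → ∑ i, u (i, v) = d := by
    intro k l d f hf u hu
    obtain ⟨i, j, hu2⟩ := coeff_Om hu
    have h5 := hf _ hu2
    simp only [Finsupp.add_apply, Finset.sum_add_distrib, SZR3.sum_single_col,
      if_neg hzv] at h5
    simp at h5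
    omega
  have e1 : ∀ (k l : Fin m) (d : ℕ) (f : MvPolynomial (Fin m × σ) ℂ),
      (∀ u, coeff u f ≠ 0 → ∑ i, u (i, v) = d) →
      ∀ u, coeff u (Om k l z a f) ≠ 0 → ∑ i, u (i, v) = d := by
    intro k l d f hf u hu
    obtain ⟨i, j, hu2⟩ := coeff_Om hu
    have h5 := hf _ hu2
    simp only [Finsupp.add_apply, Finset.sum_add_distrib, SZR3.sum_single_col,
      if_neg hzv, if_neg (Ne.symm hva)] at h5
    simpa using h5
  generalize hA : Om k l z v G = A
  generalize hB : Om k l z a G = B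
  have hA' : ∀ u, coeff u A ≠ 0 → ∑ i, u (i, v) = 1 := hA ▸ e0 k l 1 _ hd
  have hB' : ∀ u, coeff u B ≠ 0 → ∑ i, u (i, v) = 2 := hB ▸ e1 k l 2 _ hd
  have h1 : kill v (Om k' l' z v B) = 0 :=
    kill_eq_zero fun u hu => by rw [e0 k' l' 1 _ hB' u hu]; omega
  have h2 : kill v (Om k' l' z a A) = 0 :=
    kill_eq_zero fun u hu => by rw [e1 k' l' 1 _ hA' u hu]; omega
  have h3 : kill v (Om k' l' z a B) = 0 :=
    kill_eq_zero fun u hu => by rw [e1 k' l' 2 _ hB' u hu]; omega
  have h4 : kill v (Om k' l' z v A) = Om k' l' z v A :=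
    kill_eq_self fun u hu => e0 k' l' 0 _ hA' u hu
  have h5 : kill v (Om k' l' z v (A + B) + Om k' l' z a (A + B)) = Om k' l' z v A := by
    rw [(Om k' l' z v).map_add A B, (Om k' l' z a).map_add A B, map_add (kill v),
      map_add (kill v), map_add (kill v), h1, h2, h3, h4, add_zero, add_zero, add_zero]
  rw [Om_sb hva hza hzv, hA, hB, Om_sb hva hza hzv, kill_sb, h5]

end Vale.Agent.P181.O2.H96
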