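import Vale.Agent.P181.O2.H352.Tools
import Vale.Agent.P181.O2.H96.Om

set_option autoImplicit false

/-!
# P181, O2, A4: `CoreGStmt` and `CoreQStmt`
-/

open MvPolynomial

namespace Vale.Agent.P181.O2.H96

open Vale.Agent.P181.SZR3 (colD)
open Vale.Agent.P181.DG6.H887 (lsub lsub_X)
open Vale.Agent.P181.TW.H312 (opL opL_nil opL_cons opL_perm opL_zero colD_comm)
open Vale.Agent.P181.O2.H352 (QB sv kl RL DB CoreGStmt CoreQStmt inj_all)

variable {m : ℕ} {σ : Type} [Fintype σ] [DecidableEq σ]

lemma QB_zero (z : σ) (l : List σ) : QB z l (0 : MvPolynomial (Fin m × σ) ℂ) = 0 := by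
  rw [QB]
  exact Finset.sum_eq_zero fun j _ => map_zero _

/-- **(Core Q)** -/
theorem coreQ : CoreQStmt := by
  intro m σ _ _ z v l x D Q hzv hnd hz hv hl hQ hx h0
  rw [RL, map_zero, opL_zero, sub_zero] at h0
  have h1 : ∑ j ∈ l.toFinset, QB z l (opL z (l.erase j)
      (sv m v (fun c => if c = j then 1 else 0) (0 : MvPolynomial (Fin m × σ) ℂ))) = 0 := by
    refine Finset.sum_eq_zero fun j _ => ?_
    rw [map_zero, opL_zero, QB_zero]
  rw [h1, add_zero] at h0
  exact inj_all hz hnd hl D x Q (by omega) (fun u hu => ⟨(hQ u hu).1, (hQ u hu).2.2.1⟩) h0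

lemma kl_eq (a : σ) (f : MvPolynomial (Fin m × σ) ℂ) : kl m {a} f = kill a f := by
  have h : kl m {a} = (kill a : MvPolynomial (Fin m × σ) ℂ →ₐ[ℂ] _) := by
    apply MvPolynomial.algHom_ext
    rintro ⟨i, j⟩
    rw [kl, lsub_X, kill_X]
    by_cases hj : j = a
    · rw [if_pos hj]
      refine Finset.sum_eq_zero fun c _ => ?_
      rw [if_neg (by simp [hj]), C_0, zero_mul]
    · rw [if_neg hj, Finset.sum_eq_single j]
      · rw [if_pos (by simp [hj]), C_1, one_mul]
      · intro c _ hc
        rw [if_neg (fun h => hc h.1.symm), C_0, zero_mul]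
      · intro h
        exact absurd (Finset.mem_univ _) h
  rw [h]

lemma sv_eq_sb (v a : σ) (f : MvPolynomial (Fin m × σ) ℂ) :
    sv m v (fun c => if c = a then 1 else 0) f = sb v a f := by
  have h : sv m v (fun c => if c = a then 1 else 0) =
      (sb v a : MvPolynomial (Fin m × σ) ℂ →ₐ[ℂ] _) := by
    apply MvPolynomial.algHom_ext
    rintro ⟨i, j⟩
    rw [sv, lsub_X, sb_X]
    by_cases hj : j = v
    · subst hj
      simp only [if_true]
      rw [Finset.sum_eq_single a]
      · rw [if_pos rfl, C_1, one_mul]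
      · intro c _ hc
        rw [if_neg hc, C_0, zero_mul]
      · intro h
        exact absurd (Finset.mem_univ _) h
    · simp only [if_neg hj]
      rw [Finset.sum_eq_single j]
      · rw [if_pos rfl, C_1, one_mul]
      · intro c _ hc
        rw [if_neg (Ne.symm hc), C_0, zero_mul]
      · intro h
        exact absurd (Finset.mem_univ _) h
  rw [h]

lemma coeff_kill {a : σ} {f : MvPolynomial (Fin m × σ) ℂ} {u : Fin m × σ →₀ ℕ}
    (h : coeff u (kill a f) ≠ 0) : coeff u f ≠ 0 := by
  classical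
  intro h0
  apply h
  have h1 : kill a f = ∑ w ∈ f.support, kill a (monomial w (coeff w f)) := by
    conv_lhs => rw [f.as_sum]
    exact map_sum _ _ _
  rw [h1, coeff_sum]
  refine Finset.sum_eq_zero fun w hw => ?_
  have hwu : w ≠ u := by
    rintro rfl
    exact mem_support_iff.1 hw h0
  by_cases hwa : ∑ i, w (i, a) = 0
  · rw [kill_eq_self (v := a) (f := monomial w (coeff w f)), coeff_monomial, if_neg hwu]
    intro u' hu'
    rw [coeff_monomial] at hu'
    by_cases h2 : w = u'
    · rw [← h2]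
      exact hwa
    · rw [if_neg h2] at hu'
      exact absurd rfl hu'
  · rw [kill_eq_zero (v := a) (f := monomial w (coeff w f)), coeff_zero]
    intro u' hu'
    rw [coeff_monomial] at hu'
    by_cases h2 : w = u'
    · rw [← h2]
      exact hwa
    · rw [if_neg h2] at hu'
      exact absurd rfl hu'

lemma colD_opL {z a : σ} (ha : a ≠ z) (l : List σ) (hz : z ∉ l) (f : MvPolynomial (Fin m × σ) ℂ) :
    opL z l (colD a z f) = colD a z (opL z l f) := by
  induction l generalizing f with
  | nil => rfl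
  | cons j l ih =>
    have hj : j ≠ z := fun h => hz (by simp [h])
    rw [opL_cons, opL_cons, colD_comm hj ha, ih (fun h => hz (List.mem_cons_of_mem _ h))]

lemma opL_erase {z a : σ} {l : List σ} (ha : a ∈ l) (hz : z ∉ l)
    (f : MvPolynomial (Fin m × σ) ℂ) : opL z l f = colD a z (opL z (l.erase a) f) := by
  have haz : a ≠ z := fun h => hz (h ▸ ha)
  rw [opL_perm (List.perm_cons_erase ha) hz, opL_cons,
    colD_opL haz _ (fun h => hz (List.mem_of_mem_erase h))]

lemma QB_colD {z a : σ} {l : List σ} (ha : a ≠ z) (hz : z ∉ l)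
    (f : MvPolynomial (Fin m × σ) ℂ) : QB z l (colD a z f) = colD a z (QB z l f) := by
  rw [QB, QB, map_sum]
  refine Finset.sum_congr rfl fun j hj => ?_
  have hjz : j ≠ z := fun h => hz (h ▸ List.mem_toFinset.1 hj)
  exact colD_comm hjz ha f

/-- The operator `q_a ↦ 0` after two `Om`'s in the columns `z, a`. -/
noncomputable def TT (z a : σ) (k l k' l' : Fin m) :
    MvPolynomial (Fin m × σ) ℂ →ₗ[ℂ] MvPolynomial (Fin m × σ) ℂ :=
  (kill a).toLinearMap ∘ₗ (Om k' l' z a ∘ₗ Om k l z a)

lemma TT_apply (z a : σ) (k l k' l' : Fin m) (f : MvPolynomial (Fin m × σ) ℂ) :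
    TT z a k l k' l' f = kill a (Om k' l' z a (Om k l z a f)) := rfl

lemma TT_colD {z a : σ} (haz : a ≠ z) (k l k' l' : Fin m) (f : MvPolynomial (Fin m × σ) ℂ) :
    TT z a k l k' l' (colD a z f) = 0 := by
  rw [TT_apply, Om_colD k l a haz, Om_colD k' l' a haz, kill_colD_self]

lemma TT_colD_ne {z a j : σ} (haz : a ≠ z) (hjz : j ≠ z) (hja : j ≠ a) (k l k' l' : Fin m)
    (f : MvPolynomial (Fin m × σ) ℂ) :
    TT z a k l k' l' (colD j z f) = colD j z (TT z a k l k' l' f) := by
  rw [TT_apply, Om_colD k l a hjz, Om_colD k' l' a hjz, kill_colD hja haz.symm, TT_apply]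

lemma TT_opL {z a : σ} (haz : a ≠ z) (k l k' l' : Fin m) : ∀ (L : List σ), z ∉ L → a ∉ L →
    ∀ f : MvPolynomial (Fin m × σ) ℂ,
      TT z a k l k' l' (opL z L f) = opL z L (TT z a k l k' l' f) := by
  intro L
  induction L with
  | nil => intro _ _ f; rfl
  | cons j L ih =>
    intro hz ha f
    have hjz : j ≠ z := fun h => hz (by simp [h])
    have hja : j ≠ a := fun h => ha (by simp [h])
    rw [opL_cons, opL_cons, ih (fun h => hz (List.mem_cons_of_mem _ h))
      (fun h => ha (List.mem_cons_of_mem _ h)), TT_colD_ne haz hjz hja]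

/-- **(Core G)** -/
theorem coreG : CoreGStmt := by
  intro m σ _ _ z v l x x' D Q G hzv hnd hz hv hl hQ hG hzG hx' hx h0 a ha
  have haz : a ≠ z := fun h => hz (h ▸ ha)
  have hav : a ≠ v := fun h => hv (h ▸ ha)
  have hB1 : z ∉ l.erase a := fun h => hz (List.mem_of_mem_erase h)
  have hB2 : a ∉ l.erase a := hnd.not_mem_erase
  have hBn : (l.erase a).Nodup := hnd.erase a
  have hBl : (l.erase a).length = l.length - 1 := List.length_erase_of_mem ha
  have key : ∀ k l₁ k' l₂ : Fin m, kill a (Om k' l₂ z v (Om k l₁ z v G)) = 0 := by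
    intro k l₁ k' l₂
    have h1 := congrArg (TT z a k l₁ k' l₂) h0
    rw [map_zero, RL, map_sub, map_add, map_sum] at h1
    -- the `Q` term
    have e1 : TT z a k l₁ k' l₂ (QB z l (opL z l Q)) = 0 := by
      rw [opL_erase ha hz, QB_colD haz hz, TT_colD haz]
    -- the last term
    have e2 : TT z a k l₁ k' l₂ (opL z l (sv m v (fun c => if c ∈ l then 1 else 0) G)) = 0 := by
      rw [opL_erase ha hz, TT_colD haz]
    -- the terms `j ≠ a`
    have e3 : ∑ j ∈ l.toFinset, TT z a k l₁ k' l₂ (QB z l (opL z (l.erase j)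
        (sv m v (fun c => if c = j then 1 else 0) G))) =
        TT z a k l₁ k' l₂ (QB z l (opL z (l.erase a) (sb v a G))) := by
      rw [Finset.sum_eq_single a]
      · rw [sv_eq_sb]
      · intro j hj hja
        have ha' : a ∈ l.erase j := (List.mem_erase_of_ne (Ne.symm hja)).2 ha
        rw [opL_erase ha' (fun h => hz (List.mem_of_mem_erase h)), QB_colD haz hz, TT_colD haz]
      · intro h
        exact absurd (List.mem_toFinset.2 ha) h
    rw [e1, e2, e3, zero_add, sub_zero] at h1
    -- the term `j = a`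
    have e4 : TT z a k l₁ k' l₂ (QB z l (opL z (l.erase a) (sb v a G))) =
        QB z (l.erase a) (opL z (l.erase a) (kill a (Om k' l₂ z v (Om k l₁ z v G)))) := by
      have e5 : TT z a k l₁ k' l₂ (sb v a G) = kill a (Om k' l₂ z v (Om k l₁ z v G)) := by
        rw [TT_apply]
        exact kill_Om_Om_sb (Ne.symm hav) (Ne.symm haz) hzv k l₁ k' l₂
          (fun u hu => (hG u hu).2.1)
      rw [← e5, QB, map_sum, QB]
      have e6 : l.toFinset = insert a (l.erase a).toFinset := by
        ext c
        rw [Finset.mem_insert, List.mem_toFinset, List.mem_toFinset, hnd.mem_erase_iff]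
        by_cases hc : c = a
        · simp [hc, ha]
        · simp [hc]
      rw [e6, Finset.sum_insert (by rw [List.mem_toFinset]; exact hB2), TT_colD haz, zero_add]
      refine Finset.sum_congr rfl fun j hj => ?_
      have hj' : j ∈ l.erase a := List.mem_toFinset.1 hj
      have hjz : j ≠ z := fun h => hB1 (h ▸ hj')
      have hja : j ≠ a := fun h => hB2 (h ▸ hj')
      rw [TT_colD_ne haz hjz hja, TT_opL haz _ _ _ _ _ hB1 hB2]
    rw [e4] at h1
    refine inj_all hB1 hBn (by omega) D (x' - 2) _ (by omega) (fun u hu => ?_) h1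
    obtain ⟨i, j, hu2⟩ := coeff_Om (coeff_kill hu)
    obtain ⟨i', j', hu3⟩ := coeff_Om hu2
    obtain ⟨g1, g2, g3, _⟩ := hG _ hu3
    refine ⟨?_, fun c hc => ?_⟩
    · simp only [Finsupp.add_apply, Finset.sum_add_distrib, SZR3.sum_single_col,
        if_neg (Ne.symm hzv)] at g1
      simp at g1
      omega
    · have hcl : c ∈ l := List.mem_of_mem_erase hc
      have hcz : z ≠ c := fun h => hz (h ▸ hcl)
      have hcv : v ≠ c := fun h => hv (h ▸ hcl)
      have g4 := g3 c hcl
      simp only [Finsupp.add_apply, Finset.sum_add_distrib, SZR3.sum_single_col,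
        if_neg hcz, if_neg hcv] at g4
      simpa using g4
  rw [kl_eq]
  refine om_inj2 hzv (p := x') (fun u hu => (hG u (coeff_kill hu)).1)
    (fun u hu => (hG u (coeff_kill hu)).2.1) ?_ fun k l₁ k' l₂ => ?_
  · rw [← kill_colD (Ne.symm haz) (Ne.symm hav), hzG, map_zero]
  · rw [← kill_Om (Ne.symm haz) (Ne.symm hav), ← kill_Om (Ne.symm haz) (Ne.symm hav)]
    exact key k l₁ k' l₂

end Vale.Agent.P181.O2.H96
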